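import Vale.Agent.P144Z.E4.Norms
import Vale.Agent.P144Z.C.Main
import Vale.Agent.P144Z.E1.Main
import Vale.Agent.P144Z.E3.Main

/-!
The smooth singular mode.
-/

namespace Vale.Agent.P144Z

open Finset Matrix

namespace E4

variable {M : ℕ} [NeZero M]

open Polynomial in
/-- Finite range of polynomials in the operator. -/
theorem aeval_local {A : Gauge M} (hA : IsSign A) (p : ℝ[X]) {n : ℕ} (hp : p.natDegree ≤ n)
    {φ φ' : Tor M × Fin 4 → ℝ} {z : Tor M} {r : ℕ}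
    (h : ∀ s, tdist s.1 z ≤ r + 2 * n → φ s = φ' s) (s : Tor M × Fin 4) (hs : tdist s.1 z ≤ r) :
    (aeval ((Dm A)ᵀ * Dm A) p *ᵥ φ) s = (aeval ((Dm A)ᵀ * Dm A) p *ᵥ φ') s := by
  have e : ∀ k : ℕ, ((Dm A)ᵀ * Dm A) ^ k = ((-1 : ℝ) ^ k) • Dm A ^ (2 * k) := by
    intro k
    rw [(isD_Dm hA).anti, neg_mul, ← pow_two, ← neg_one_smul ℝ, _root_.smul_pow, pow_mul]
  rw [aeval_eq_sum_range' (lt_of_le_of_lt hp (Nat.lt_succ_self n))]
  simp only [Matrix.sum_mulVec, Finset.sum_apply, Matrix.smul_mulVec, Pi.smul_apply, e]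
  refine Finset.sum_congr rfl fun k hk => ?_
  rw [Finset.mem_range] at hk
  rw [Dm_local A (2 * k) (fun t ht => h t (by omega)) s hs]

theorem pow_rp {C y p : ℝ} (hC : 1 ≤ C) (hy : 0 ≤ y) (h1 : |p| ≤ 1) (h2 : |p| * y ^ 4 ≤ C)
    {k : ℕ} (hk : k ≤ 4) : y ^ k * p ^ 2 ≤ C := by
  have h3 : p ^ 2 ≤ |p| := by
    rw [← sq_abs]; nlinarith [abs_nonneg p]
  have h4 : y ^ k * p ^ 2 ≤ y ^ k * |p| := mul_le_mul_of_nonneg_left h3 (by positivity)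
  rcases le_total y 1 with h | h
  · have h5 : y ^ k ≤ 1 := pow_le_one₀ hy h
    nlinarith [abs_nonneg p, pow_nonneg hy k]
  · have h5 : y ^ k ≤ y ^ 4 := pow_le_pow_right₀ h hk
    nlinarith [abs_nonneg p]

theorem hsq_congr (A : Gauge M) (ρ : ℝ) {z : Tor M} {r : ℕ} {g g' : Tor M × Fin 4 → ℝ}
    (h : ∀ s : Tor M × Fin 4, tdist s.1 z ≤ r + 4 → g s = g' s) :
    hsq A ρ (ball z r) g = hsq A ρ (ball z r) g' := by
  refine Finset.sum_congr rfl fun k hk => ?_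
  rw [Finset.mem_range] at hk
  congr 1
  exact l2sq_congr fun s hs => Dm_local A k (fun t ht => h t (by omega)) s (mem_ball.1 hs)

theorem hsq_of_D (A : Gauge M) (ρ : ℝ) {z : Tor M} {r : ℕ} {g : Tor M × Fin 4 → ℝ}
    (h : ∀ s : Tor M × Fin 4, tdist s.1 z ≤ r + 3 → (Dm A *ᵥ g) s = 0) :
    hsq A ρ (ball z r) g = l2sq (ball z r) g := by
  rw [hsq_eq, Finset.sum_eq_zero, add_zero]
  intro k hk
  rw [Finset.mem_range] at hk
  rw [l2sq_zero, mul_zero]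
  intro s hs
  rw [pow_succ, ← Matrix.mulVec_mulVec,
    Dm_local A (φ' := 0) k (fun t ht => h t (by omega)) s (mem_ball.1 hs)]
  simp

open Polynomial in
theorem smooth_near {A : Gauge M} (hA : IsSign A) {f : Tor M} {m : ℕ} (m1 : 1 ≤ m)
    (p3 : X * qp m = 1 - rp m) (p4 : (qp m).natDegree ≤ 8 * m) {u0 w : Tor M × Fin 4 → ℝ}
    (d0 : ∀ s : Tor M × Fin 4, tdist s.1 f ≤ 32 * m → (Dm A *ᵥ u0) s = 0)
    (hw : ∀ s : Tor M × Fin 4, tdist s.1 f ≤ 32 * m → w s = u0 s) (s : Tor M × Fin 4)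
    (hs : tdist s.1 f ≤ 16 * m - 2) : (aeval ((Dm A)ᵀ * Dm A) (rp m) *ᵥ w) s = u0 s := by
  have e1 : rp m = 1 - qp m * X := by rw [mul_comm, p3]; ring
  have e2 : aeval ((Dm A)ᵀ * Dm A) (rp m) *ᵥ w =
      w - aeval ((Dm A)ᵀ * Dm A) (qp m) *ᵥ (((Dm A)ᵀ * Dm A) *ᵥ w) := by
    rw [e1, map_sub, map_one, map_mul, aeval_X, Matrix.sub_mulVec, Matrix.one_mulVec,
      Matrix.mulVec_mulVec]
  have e3 : ∀ t : Tor M × Fin 4, tdist t.1 f ≤ 32 * m - 1 → (Dm A *ᵥ w) t = 0 := by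
    intro t ht
    have := Dm_local A (φ := w) (φ' := u0) (z := f) (r := 32 * m - 1) 1
      (fun t' ht' => hw t' (by omega)) t ht
    rw [pow_one] at this
    rw [this, d0 t (by omega)]
  have e4 : ∀ t : Tor M × Fin 4, tdist t.1 f ≤ 16 * m - 2 + 2 * (8 * m) →
      (((Dm A)ᵀ * Dm A) *ᵥ w) t = (0 : Tor M × Fin 4 → ℝ) t := by
    intro t ht
    have := Dm_local A (φ := Dm A *ᵥ w) (φ' := 0) (z := f) (r := 16 * m - 2 + 2 * (8 * m)) 1
      (fun t' ht' => e3 t' (by omega)) t ht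
    rw [pow_one] at this
    rw [(isD_Dm hA).anti, neg_mul, Matrix.neg_mulVec, ← Matrix.mulVec_mulVec, Pi.neg_apply, this]
    simp
  rw [e2, Pi.sub_apply, aeval_local hA (qp m) p4 e4 s hs, hw s (by omega)]
  simp

open Polynomial in
theorem smooth_far {A : Gauge M} (hA : IsSign A) {f : Tor M} {m : ℕ}
    (p2 : (rp m).natDegree ≤ 8 * m) {w : Tor M × Fin 4 → ℝ}
    (hw : ∀ s : Tor M × Fin 4, 32 * m < tdist s.1 f → w s = 0) (s : Tor M × Fin 4)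
    (hs : 48 * m < tdist s.1 f) : (aeval ((Dm A)ᵀ * Dm A) (rp m) *ᵥ w) s = 0 := by
  rw [aeval_local hA (rp m) p2 (φ' := 0) (z := s.1) (r := 0) ?_ s (by rw [tdist_self])]
  · simp
  · intro t ht
    have := tdist_triangle s.1 t.1 f
    rw [tdist_comm s.1 t.1] at this
    exact hw t (by omega)

open Polynomial in
theorem smooth_glob {A : Gauge M} (hA : IsSign A) {m : ℕ} (m1 : 1 ≤ m) {C ρ : ℝ} (hC : 1 ≤ C)
    (h0 : 0 ≤ ρ) (m3 : ρ ≤ 512 * m)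
    (p5 : ∀ s ∈ Set.Icc (0 : ℝ) 16, |(rp m).eval s| ≤ 1 ∧ |(rp m).eval s| * ((m : ℝ) ^ 2 * s) ^ 4 ≤ C)
    (w : Tor M × Fin 4 → ℝ) :
    hsq A ρ univ (aeval ((Dm A)ᵀ * Dm A) (rp m) *ᵥ w) ≤ 5 * 512 ^ 8 * C * l2sq univ w := by
  have m1' : (1:ℝ) ≤ m := by exact_mod_cast m1
  have hw := l2sq_nonneg univ w
  have h1 : ∀ k ∈ range 5, ρ ^ (2 * k) * l2sq univ ((Dm A ^ k) *ᵥ
      (aeval ((Dm A)ᵀ * Dm A) (rp m) *ᵥ w)) ≤ 512 ^ 8 * C * l2sq univ w := by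
    intro k hk
    rw [Finset.mem_range] at hk
    have hmk : (0:ℝ) < (m:ℝ) ^ (2 * k) := by positivity
    have h2 := poly_le (isD_Dm hA) (rp m) k (c := C / (m:ℝ) ^ (2 * k)) (fun s hs => by
      obtain ⟨q1, q2⟩ := p5 s hs
      have := pow_rp hC (y := (m:ℝ) ^ 2 * s) (mul_nonneg (by positivity) hs.1) q1 q2
        (k := k) (by omega)
      rw [le_div_iff₀ hmk]
      rw [mul_pow, ← pow_mul] at this
      linarith) w
    rw [← Matrix.mulVec_mulVec, ← l2sq_univ, ← l2sq_univ] at h2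
    have h3 : ρ ^ (2 * k) ≤ 512 ^ 8 * (m:ℝ) ^ (2 * k) := by
      calc ρ ^ (2 * k) ≤ (512 * m) ^ (2 * k) := pow_le_pow_left₀ h0 m3 _
        _ = 512 ^ (2 * k) * (m:ℝ) ^ (2 * k) := mul_pow _ _ _
        _ ≤ 512 ^ 8 * (m:ℝ) ^ (2 * k) :=
          mul_le_mul_of_nonneg_right (pow_le_pow_right₀ (by norm_num) (by omega)) hmk.le
    refine (mul_le_mul h3 h2 (l2sq_nonneg _ _) (by positivity)).trans (le_of_eq ?_)
    field_simp
  have h2 := Finset.sum_le_card_nsmul _ _ _ h1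
  rw [nsmul_eq_mul, Finset.card_range] at h2
  unfold hsq
  refine h2.trans (le_of_eq ?_)
  push_cast; ring

theorem smooth_mid {A : Gauge M} {z : Tor M} {m ℓ ρ : ℕ} (m1 : 1 ≤ m) (m2 : 256 * m ≤ ρ)
    (m3 : ρ ≤ 512 * m) (hl : ℓ ≤ m) {C K : ℝ} (hC : 0 ≤ C) (hK : 0 ≤ K) {u : Tor M × Fin 4 → ℝ}
    (glob : hsq A ρ univ u ≤ K * ρ)
    (h1 : hsq A ℓ (ball z (2 * ℓ)) u ≤
      C * ((ℓ : ℝ) / (8 * m : ℕ)) ^ 2 * hsq A (8 * m : ℕ) (ball z (8 * m)) u) :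
    hsq A ℓ (ball z (2 * ℓ)) u ≤ 8 * (C * K) * ℓ := by
  have m1' : (1:ℝ) ≤ m := by exact_mod_cast m1
  have m2' : 256 * (m:ℝ) ≤ ρ := by exact_mod_cast m2
  have m3' : (ρ:ℝ) ≤ 512 * m := by exact_mod_cast m3
  have l3 : (ℓ:ℝ) ≤ m := by exact_mod_cast hl
  have l0 : (0:ℝ) ≤ ℓ := Nat.cast_nonneg ℓ
  have h2 := hsq_mono A (ℓ := ((8 * m : ℕ) : ℝ)) (by positivity) (ρ := ρ)
    (by push_cast; linarith) (Finset.subset_univ (ball z (8 * m))) u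
  have h3 : ((ℓ:ℝ) / ((8 * m : ℕ) : ℝ)) ^ 2 * (K * ρ) ≤ 8 * K * ℓ := by
    push_cast
    rw [div_pow, div_mul_eq_mul_div, div_le_iff₀ (by positivity)]
    have h4 : (ℓ:ℝ) * ρ ≤ m * (512 * m) := mul_le_mul l3 m3' (by linarith) (by linarith)
    have h5 : 0 ≤ K * ℓ := by positivity
    have h6 := mul_le_mul_of_nonneg_left h4 h5
    linarith
  have h4 : ((ℓ:ℝ) / ((8 * m : ℕ) : ℝ)) ^ 2 * hsq A ((8 * m : ℕ) : ℝ) (ball z (8 * m)) u ≤
      8 * K * ℓ := le_trans (mul_le_mul_of_nonneg_left (h2.trans glob) (by positivity)) h3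
  have h5 := mul_le_mul_of_nonneg_left h4 hC
  linarith

end E4

open E4 Polynomial in
/-- The smooth singular mode. -/
theorem smooth_mode : ∃ C : ℝ, 1 ≤ C ∧ ∀ (M : ℕ) [NeZero M] (A : Gauge M), IsSign A →
    ∀ (f : Tor M) (ρ : ℕ), 256 ≤ ρ → 2 * ρ + 11 ≤ M → flux A f = -1 →
    (∀ f', f' ≠ f → tdist f' f ≤ ρ → flux A f' = 1) →
    ∃ u : Tor M × Fin 4 → ℝ, cnr f ⬝ᵥ u = 1 ∧ SuppIn u f (ρ / 4) ∧ hsq A ρ univ u ≤ C * ρ ∧
      ∀ (z : Tor M) (ℓ : ℕ), 1 ≤ ℓ → ℓ ≤ ρ → hsq A ℓ (ball z (2 * ℓ)) u ≤ C * ℓ := by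
  obtain ⟨C1, hC1, H1⟩ := sing_mode
  obtain ⟨C2, hC2, H2⟩ := rp_spec
  obtain ⟨C3, hC3, H3⟩ := bulk_est
  obtain ⟨K0, hK0⟩ : ∃ K : ℝ, K = 5 * 512 ^ 8 * C2 := ⟨_, rfl⟩
  have hK03 : 3 ≤ K0 := by rw [hK0]; linarith
  obtain ⟨K, hK⟩ : ∃ K : ℝ, K = K0 * (96 * C1) := ⟨_, rfl⟩
  have hK2 : 3 * (96 * C1) ≤ K := by
    rw [hK]; exact mul_le_mul_of_nonneg_right hK03 (by linarith)
  have hK1 : 1 ≤ K := by linarith
  have hK3 : K ≤ C3 * K := le_mul_of_one_le_left (by linarith) hC3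
  refine ⟨512 * (C3 * K), by linarith, fun M _ A hA f ρ hρ hM hf hfl => ?_⟩
  obtain ⟨m, hm⟩ : ∃ m : ℕ, m = ρ / 256 := ⟨_, rfl⟩
  have m1 : 1 ≤ m := by omega
  have m2 : 256 * m ≤ ρ := by omega
  have m3 : ρ ≤ 512 * m := by omega
  have m4 : 48 * m ≤ ρ / 4 := by omega
  clear hm
  have m1' : (1:ℝ) ≤ m := by exact_mod_cast m1
  have m2' : 256 * (m:ℝ) ≤ ρ := by exact_mod_cast m2
  have m3' : (ρ:ℝ) ≤ 512 * m := by exact_mod_cast m3
  have hρ0 : (0:ℝ) ≤ ρ := Nat.cast_nonneg ρ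
  obtain ⟨u0, c0, d0, b0⟩ := H1 M A hA f (ρ - 4) (by omega) (by omega) hf
    (fun f' h1 h2 => hfl f' h1 (by omega))
  obtain ⟨-, p2, p3, p4, p5⟩ := H2 m
  obtain ⟨w, hw⟩ : ∃ w : Tor M × Fin 4 → ℝ,
    w = fun s => (if tdist s.1 f ≤ 32 * m then (1:ℝ) else 0) * u0 s := ⟨_, rfl⟩
  have near := smooth_near hA (f := f) m1 p3 p4 (fun s hs => d0 s (by omega)) (w := w)
    (fun s hs => by rw [hw]; simp only; rw [if_pos hs, one_mul])
  have far := smooth_far hA (f := f) p2 (w := w)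
    (fun s hs => by rw [hw]; simp only; rw [if_neg (by omega), zero_mul])
  have glob0 := smooth_glob hA m1 hC2 hρ0 m3' (fun s hs => ⟨(p5 s hs).1, (p5 s hs).2.1⟩) w
  have hw2 : l2sq univ w ≤ 96 * C1 * ρ := by
    have h1 := l2sq_cut (η := fun x => if tdist x f ≤ 32 * m then (1:ℝ) else 0)
      (fun x => by split_ifs <;> norm_num) (B := ball f (32 * m))
      (fun x hx => by rw [mem_ball] at hx; rw [if_neg hx]) u0
    have h2 := l2sq_decay (by linarith) b0 f (32 * m)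
    rw [hw]
    refine (h1.trans h2).trans (mul_le_mul_of_nonneg_left ?_ (by linarith))
    push_cast; linarith
  generalize aeval ((Dm A)ᵀ * Dm A) (rp m) *ᵥ w = u at near far glob0
  have glob : hsq A ρ univ u ≤ K * ρ := by
    rw [← hK0] at glob0
    refine glob0.trans ?_
    rw [hK, mul_assoc]
    exact mul_le_mul_of_nonneg_left hw2 (by linarith)
  clear glob0 hw2 hw p2 p3 p4 p5 H1 H2 hK hK0
  refine ⟨u, ?_, fun s hs => far s (by omega), ?_, fun z ℓ hl1 hl2 => ?_⟩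
  · rw [cnr_dot] at c0 ⊢
    have h0 : tdist f f ≤ 16 * m - 2 := by rw [tdist_self]; omega
    rw [near (f, 0) h0, near (f, 1) h0, near (f, 2) h0, near (f, 3) h0, c0]
  · exact glob.trans (mul_le_mul_of_nonneg_right (by linarith) hρ0)
  have l1 : (1:ℝ) ≤ ℓ := by exact_mod_cast hl1
  have l2 : (ℓ:ℝ) ≤ ρ := by exact_mod_cast hl2
  have k0 : K * ℓ ≤ C3 * K * ℓ := mul_le_mul_of_nonneg_right hK3 (by linarith)
  have k1 : 0 ≤ K * ℓ := by positivity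
  rcases le_or_gt m ℓ with hl | hl
  · have h1 := hsq_mono A (by linarith) l2 (Finset.subset_univ (ball z (2 * ℓ))) u
    have l3 : (m:ℝ) ≤ ℓ := by exact_mod_cast hl
    have h2 : K * ρ ≤ K * (512 * ℓ) := mul_le_mul_of_nonneg_left (by linarith) (by linarith)
    linarith
  rcases le_or_gt (tdist z f) (8 * m) with hz | hz
  · have h1 : hsq A ℓ (ball z (2 * ℓ)) u = hsq A ℓ (ball z (2 * ℓ)) u0 :=
      hsq_congr A ℓ fun s hs => near s (by have := tdist_triangle s.1 z f; omega)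
    rw [h1, hsq_of_D A ℓ fun s hs => d0 s (by have := tdist_triangle s.1 z f; omega)]
    have h2 := l2sq_decay (by linarith) b0 z (2 * ℓ)
    have h3 : 96 * C1 * (((2 * ℓ : ℕ) : ℝ) + 1) ≤ 96 * C1 * (3 * ℓ) :=
      mul_le_mul_of_nonneg_left (by push_cast; linarith) (by linarith)
    have h4 := mul_le_mul_of_nonneg_right hK2 (by linarith : (0:ℝ) ≤ ℓ)
    linarith
  rcases le_or_gt (tdist z f) (64 * m) with hz' | hz'
  · have hF : Flat A z (8 * m) := by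
      intro f' hf'
      have := tdist_triangle f' z f
      refine hfl f' ?_ (by omega)
      rintro rfl
      rw [tdist_comm] at hf'
      omega
    have h1 := smooth_mid m1 m2 m3 hl.le (by linarith) (by linarith) glob
      (H3 M A hA z ℓ (8 * m) hl1 (by omega) (by omega) hF u)
    linarith
  · have h1 : hsq A ℓ (ball z (2 * ℓ)) u = hsq A ℓ (ball z (2 * ℓ)) 0 :=
      hsq_congr A ℓ fun s hs => far s (by
        have := tdist_triangle z s.1 f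
        rw [tdist_comm z s.1] at this
        omega)
    have h2 : hsq A ℓ (ball z (2 * ℓ)) 0 = 0 := by simp [hsq, l2sq]
    rw [h1, h2]
    linarith

end Vale.Agent.P144Z
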