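import Vale.Agent.P144Z.Lat

/-!
The operator in coordinates and the corner variables.
-/

namespace Vale.Agent.P144Z

open Finset Matrix

namespace E4

variable {M : ℕ} [NeZero M]

theorem hop_sum (A : Gauge M) (g : Tor M × Fin 4 → ℝ) (x : Tor M) (a : Fin 4) :
    ∑ s', hop A (x, a) s' * g s' = (if a = 0 then A (x, 0) * g (x + uv M 0, 2) else 0) +
      (if a = 1 then A (x, 1) * g (x + uv M 1, 3) else 0) := by
  unfold hop
  simp only [add_mul, Finset.sum_add_distrib]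
  congr 1
  · rw [Finset.sum_eq_single (x + uv M 0, 2)]
    · by_cases h : a = 0 <;> simp [h]
    · rintro ⟨y, b⟩ _ hne
      rw [if_neg, zero_mul]
      rintro ⟨_, h2, h3⟩
      exact hne (Prod.ext h3 h2)
    · simp
  · rw [Finset.sum_eq_single (x + uv M 1, 3)]
    · by_cases h : a = 1 <;> simp [h]
    · rintro ⟨y, b⟩ _ hne
      rw [if_neg, zero_mul]
      rintro ⟨_, h2, h3⟩
      exact hne (Prod.ext h3 h2)
    · simp

theorem hop_sum' (A : Gauge M) (g : Tor M × Fin 4 → ℝ) (x : Tor M) (a : Fin 4) :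
    ∑ s', hop A s' (x, a) * g s' = (if a = 2 then A (x - uv M 0, 0) * g (x - uv M 0, 0) else 0) +
      (if a = 3 then A (x - uv M 1, 1) * g (x - uv M 1, 1) else 0) := by
  unfold hop
  simp only [add_mul, Finset.sum_add_distrib]
  congr 1
  · rw [Finset.sum_eq_single (x - uv M 0, 0)]
    · by_cases h : a = 2 <;> simp [h]
    · rintro ⟨y, b⟩ _ hne
      rw [if_neg, zero_mul]
      rintro ⟨h1, _, h3⟩
      refine hne (Prod.ext ?_ h1)
      simp only at h3 ⊢
      rw [h3]; simp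
    · simp
  · rw [Finset.sum_eq_single (x - uv M 1, 1)]
    · by_cases h : a = 3 <;> simp [h]
    · rintro ⟨y, b⟩ _ hne
      rw [if_neg, zero_mul]
      rintro ⟨h1, _, h3⟩
      refine hne (Prod.ext ?_ h1)
      simp only at h3 ⊢
      rw [h3]; simp
    · simp

theorem Dm_apply (A : Gauge M) (g : Tor M × Fin 4 → ℝ) (x : Tor M) (a : Fin 4) :
    (Dm A *ᵥ g) (x, a) = ∑ b, sA a b * g (x, b) + tc *
      ((if a = 0 then A (x, 0) * g (x + uv M 0, 2) else 0) +
        (if a = 1 then A (x, 1) * g (x + uv M 1, 3) else 0) -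
        ((if a = 2 then A (x - uv M 0, 0) * g (x - uv M 0, 0) else 0) +
          (if a = 3 then A (x - uv M 1, 1) * g (x - uv M 1, 1) else 0))) := by
  rw [← hop_sum, ← hop_sum']
  unfold Dm
  simp only [Matrix.mulVec, dotProduct, Matrix.of_apply, add_mul, Finset.sum_add_distrib]
  congr 1
  · rw [Fintype.sum_prod_type, Finset.sum_eq_single x]
    · simp
    · intro y _ hy
      simp [Ne.symm hy]
    · simp
  · rw [← Finset.sum_sub_distrib, Finset.mul_sum]
    refine Finset.sum_congr rfl fun s _ => ?_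
    ring

theorem Dm0 (A : Gauge M) (g : Tor M × Fin 4 → ℝ) (x : Tor M) : (Dm A *ᵥ g) (x, 0) =
    g (x, 1) + g (x, 2) + g (x, 3) + tc * (A (x, 0) * g (x + uv M 0, 2)) := by
  rw [Dm_apply]; simp [Fin.sum_univ_four, sA]

theorem Dm1 (A : Gauge M) (g : Tor M × Fin 4 → ℝ) (x : Tor M) : (Dm A *ᵥ g) (x, 1) =
    -g (x, 0) + g (x, 2) + g (x, 3) + tc * (A (x, 1) * g (x + uv M 1, 3)) := by
  rw [Dm_apply]; simp [Fin.sum_univ_four, sA]

theorem Dm2 (A : Gauge M) (g : Tor M × Fin 4 → ℝ) (x : Tor M) : (Dm A *ᵥ g) (x, 2) =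
    -g (x, 0) - g (x, 1) + g (x, 3) - tc * (A (x - uv M 0, 0) * g (x - uv M 0, 0)) := by
  rw [Dm_apply]; simp [Fin.sum_univ_four, sA]; ring

theorem Dm3 (A : Gauge M) (g : Tor M × Fin 4 → ℝ) (x : Tor M) : (Dm A *ᵥ g) (x, 3) =
    -g (x, 0) - g (x, 1) - g (x, 2) - tc * (A (x - uv M 1, 1) * g (x - uv M 1, 1)) := by
  rw [Dm_apply]; simp [Fin.sum_univ_four, sA]; ring

theorem cnr_dot (x : Tor M) (g : Tor M × Fin 4 → ℝ) :
    cnr x ⬝ᵥ g = -g (x, 0) + g (x, 1) + g (x, 2) + g (x, 3) := by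
  unfold cnr dotProduct
  rw [Fintype.sum_prod_type, Finset.sum_eq_single x]
  · simp [Fin.sum_univ_four]
  · intro y _ hy
    simp [hy]
  · simp

/-- The south-east corner variable. -/
noncomputable def c0 (A : Gauge M) (u v : Tor M → ℝ) (x : Tor M) : ℝ :=
  (-u x + A (x, 0) * v (x + uv M 0)) * (√2 / 2)

/-- The north-west corner variable. -/
noncomputable def c2 (A : Gauge M) (u v : Tor M → ℝ) (x : Tor M) : ℝ :=
  (-u x - A (x, 1) * v (x + uv M 1)) * (√2 / 2)

/-- The field with given corner variables. -/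
noncomputable def fromUV (A : Gauge M) (u v : Tor M → ℝ) (s : Tor M × Fin 4) : ℝ :=
  ![(c0 A u v s.1 - u s.1) / 2, (u s.1 - c2 A u v s.1) / 2, (c2 A u v s.1 - v s.1) / 2,
    (v s.1 + c0 A u v s.1) / 2] s.2

/-- The first equation. -/
def CR1 (A : Gauge M) (u v : Tor M → ℝ) (x : Tor M) : Prop :=
  A (x, 0) * v (x + uv M 0) - v x = u x - A (x - uv M 1, 1) * u (x - uv M 1)

/-- The second equation. -/
def CR2 (A : Gauge M) (u v : Tor M → ℝ) (x : Tor M) : Prop :=
  A (x, 1) * v (x + uv M 1) - v x = -(u x - A (x - uv M 0, 0) * u (x - uv M 0))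

theorem sign_sq {α : Type} {A : α → ℝ} (hA : IsSign A) (e : α) : A e * A e = 1 := by
  rcases hA e with h | h <;> rw [h] <;> norm_num

theorem Dm_fromUV {A : Gauge M} (hA : IsSign A) {u v : Tor M → ℝ} {x : Tor M}
    (h1 : CR1 A u v x) (h2 : CR2 A u v x) (h3 : CR1 A u v (x + uv M 1))
    (h4 : CR2 A u v (x + uv M 0)) (a : Fin 4) : (Dm A *ᵥ fromUV A u v) (x, a) = 0 := by
  have r2 : √2 * √2 = 2 := Real.mul_self_sqrt (by norm_num)
  unfold CR1 at h1 h3
  unfold CR2 at h2 h4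
  rw [add_sub_cancel_right] at h3 h4
  fin_cases a
  · have q := sign_sq hA (x, 0)
    change (Dm A *ᵥ fromUV A u v) (x, 0) = 0
    rw [Dm0]
    simp only [fromUV, c0, c2, tc, Matrix.cons_val_zero, Matrix.cons_val_one, Matrix.cons_val]
    linear_combination (-(√2 - 1) * A (x, 0) * √2 / 4) * h4 - ((√2 - 1) * √2 / 4 * u x) * q -
      ((A (x, 0) * v (x + uv M 0) + u x) / 4) * r2
  · have q := sign_sq hA (x, 1)
    change (Dm A *ᵥ fromUV A u v) (x, 1) = 0
    rw [Dm1]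
    simp only [fromUV, c0, c2, tc, Matrix.cons_val_zero, Matrix.cons_val_one, Matrix.cons_val]
    linear_combination ((√2 - 1) * A (x, 1) * √2 / 4) * h3 - ((√2 - 1) * √2 / 4 * u x) * q +
      ((A (x, 1) * v (x + uv M 1) - u x) / 4) * r2
  · have q := sign_sq hA (x - uv M 0, 0)
    change (Dm A *ᵥ fromUV A u v) (x, 2) = 0
    rw [Dm2]
    simp only [fromUV, c0, c2, tc, Matrix.cons_val_zero, Matrix.cons_val_one, Matrix.cons_val,
      sub_add_cancel]
    linear_combination (-√2 / 4) * h2 - ((√2 - 1) * √2 / 4 * v x) * q +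
      ((A (x - uv M 0, 0) * u (x - uv M 0) - v x) / 4) * r2
  · have q := sign_sq hA (x - uv M 1, 1)
    change (Dm A *ᵥ fromUV A u v) (x, 3) = 0
    rw [Dm3]
    simp only [fromUV, c0, c2, tc, Matrix.cons_val_zero, Matrix.cons_val_one, Matrix.cons_val,
      sub_add_cancel]
    linear_combination (-√2 / 4) * h1 - ((√2 - 1) * √2 / 4 * v x) * q -
      ((A (x - uv M 1, 1) * u (x - uv M 1) + v x) / 4) * r2

theorem cnr_fromUV (A : Gauge M) (u v : Tor M → ℝ) (x : Tor M) : cnr x ⬝ᵥ fromUV A u v = u x := by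
  rw [cnr_dot]
  simp only [fromUV, Matrix.cons_val_zero, Matrix.cons_val_one, Matrix.cons_val]
  ring

omit [NeZero M] in
theorem fromUV_sq {A : Gauge M} (hA : IsSign A) (u v : Tor M → ℝ) (s : Tor M × Fin 4) :
    fromUV A u v s ^ 2 ≤
      u s.1 ^ 2 + v s.1 ^ 2 + v (s.1 + uv M 0) ^ 2 + v (s.1 + uv M 1) ^ 2 := by
  obtain ⟨x, a⟩ := s
  have r2 : √2 * √2 = 2 := Real.mul_self_sqrt (by norm_num)
  have k0 : c0 A u v x ^ 2 ≤ u x ^ 2 + v (x + uv M 0) ^ 2 := by
    have q := sign_sq hA (x, 0)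
    have e : c0 A u v x ^ 2 = (-u x + A (x, 0) * v (x + uv M 0)) ^ 2 / 2 := by
      unfold c0; linear_combination ((-u x + A (x, 0) * v (x + uv M 0)) ^ 2 / 4) * r2
    have e' : (A (x, 0) * v (x + uv M 0)) ^ 2 = v (x + uv M 0) ^ 2 := by
      linear_combination (v (x + uv M 0) ^ 2) * q
    rw [e]
    nlinarith [sq_nonneg (u x + A (x, 0) * v (x + uv M 0))]
  have k2 : c2 A u v x ^ 2 ≤ u x ^ 2 + v (x + uv M 1) ^ 2 := by
    have q := sign_sq hA (x, 1)
    have e : c2 A u v x ^ 2 = (-u x - A (x, 1) * v (x + uv M 1)) ^ 2 / 2 := by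
      unfold c2; linear_combination ((-u x - A (x, 1) * v (x + uv M 1)) ^ 2 / 4) * r2
    have e' : (A (x, 1) * v (x + uv M 1)) ^ 2 = v (x + uv M 1) ^ 2 := by
      linear_combination (v (x + uv M 1) ^ 2) * q
    rw [e]
    nlinarith [sq_nonneg (u x - A (x, 1) * v (x + uv M 1))]
  have n1 := sq_nonneg (u x)
  have n2 := sq_nonneg (v x)
  have n3 := sq_nonneg (v (x + uv M 0))
  have n4 := sq_nonneg (v (x + uv M 1))
  fin_cases a
  · change ((c0 A u v x - u x) / 2) ^ 2 ≤ _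
    nlinarith [sq_nonneg (c0 A u v x + u x)]
  · change ((u x - c2 A u v x) / 2) ^ 2 ≤ _
    nlinarith [sq_nonneg (c2 A u v x + u x)]
  · change ((c2 A u v x - v x) / 2) ^ 2 ≤ _
    nlinarith [sq_nonneg (c2 A u v x + v x)]
  · change ((v x + c0 A u v x) / 2) ^ 2 ≤ _
    nlinarith [sq_nonneg (c0 A u v x - v x)]

end E4

end Vale.Agent.P144Z
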