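import Vale.Agent.P144Z.E4.Sing

/-!
Elementary properties of the norms.
-/

namespace Vale.Agent.P144Z

open Finset Matrix

namespace E4

variable {M : ℕ} [NeZero M]

theorem mem_ball {z x : Tor M} {r : ℕ} : x ∈ ball z r ↔ tdist x z ≤ r := by
  unfold ball; simp

theorem ball_sub {z z' : Tor M} {r r' : ℕ} (h : tdist z z' + r ≤ r') : ball z r ⊆ ball z' r' := by
  intro x hx
  rw [mem_ball] at hx ⊢
  have := tdist_triangle x z z'
  lia

omit [NeZero M] in
theorem l2sq_nonneg (B : Finset (Tor M)) (g : Tor M × Fin 4 → ℝ) : 0 ≤ l2sq B g := by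
  unfold l2sq; positivity

omit [NeZero M] in
theorem l2sq_mono {B B' : Finset (Tor M)} (h : B ⊆ B') (g : Tor M × Fin 4 → ℝ) :
    l2sq B g ≤ l2sq B' g :=
  Finset.sum_le_sum_of_subset_of_nonneg h fun _ _ _ => by positivity

omit [NeZero M] in
theorem l2sq_congr {B : Finset (Tor M)} {g g' : Tor M × Fin 4 → ℝ}
    (h : ∀ s : Tor M × Fin 4, s.1 ∈ B → g s = g' s) : l2sq B g = l2sq B g' :=
  Finset.sum_congr rfl fun x hx => Finset.sum_congr rfl fun a _ => by rw [h (x, a) hx]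

omit [NeZero M] in
theorem l2sq_zero {B : Finset (Tor M)} {g : Tor M × Fin 4 → ℝ}
    (h : ∀ s : Tor M × Fin 4, s.1 ∈ B → g s = 0) : l2sq B g = 0 :=
  Finset.sum_eq_zero fun x hx => Finset.sum_eq_zero fun a _ => by rw [h (x, a) hx]; ring

omit [NeZero M] in
theorem l2sq_add_le (B : Finset (Tor M)) (g g' : Tor M × Fin 4 → ℝ) :
    l2sq B (g + g') ≤ 2 * l2sq B g + 2 * l2sq B g' := by
  unfold l2sq
  rw [Finset.mul_sum, Finset.mul_sum, ← Finset.sum_add_distrib]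
  refine Finset.sum_le_sum fun x _ => ?_
  rw [Finset.mul_sum, Finset.mul_sum, ← Finset.sum_add_distrib]
  refine Finset.sum_le_sum fun a _ => ?_
  rw [Pi.add_apply]
  nlinarith [sq_nonneg (g (x, a) - g' (x, a))]

omit [NeZero M] in
theorem l2sq_smul (B : Finset (Tor M)) (c : ℝ) (g : Tor M × Fin 4 → ℝ) :
    l2sq B (c • g) = c ^ 2 * l2sq B g := by
  unfold l2sq
  rw [Finset.mul_sum]
  refine Finset.sum_congr rfl fun x _ => ?_
  rw [Finset.mul_sum]
  refine Finset.sum_congr rfl fun a _ => ?_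
  rw [Pi.smul_apply, smul_eq_mul]; ring

theorem l2sq_univ (g : Tor M × Fin 4 → ℝ) : l2sq univ g = g ⬝ᵥ g := by
  unfold l2sq dotProduct
  rw [Fintype.sum_prod_type (fun s : Tor M × Fin 4 => g s * g s)]
  simp only [pow_two]

/-- A cut-off function decreases the norm and localizes it. -/
theorem l2sq_cut {η : Tor M → ℝ} (h01 : ∀ x, 0 ≤ η x ∧ η x ≤ 1) {B : Finset (Tor M)}
    (hB : ∀ x, x ∉ B → η x = 0) (g : Tor M × Fin 4 → ℝ) :
    l2sq univ (fun s => η s.1 * g s) ≤ l2sq B g := by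
  unfold l2sq
  rw [← Finset.sum_subset (Finset.subset_univ B)]
  · refine Finset.sum_le_sum fun x _ => Finset.sum_le_sum fun a _ => ?_
    have h := h01 x
    have : η x ^ 2 ≤ 1 := by nlinarith
    rw [mul_pow]
    nlinarith [sq_nonneg (g (x, a))]
  · intro x _ hx
    simp [hB x hx]

omit [NeZero M] in
theorem gradsq_mono (A : Gauge M) {B B' : Finset (Tor M)} (h : B ⊆ B') (g : Tor M × Fin 4 → ℝ) :
    gradsq A B g ≤ gradsq A B' g :=
  Finset.sum_le_sum_of_subset_of_nonneg h fun _ _ _ => by positivity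

theorem hsq_nonneg (A : Gauge M) {ρ : ℝ} (B : Finset (Tor M)) (g : Tor M × Fin 4 → ℝ) :
    0 ≤ hsq A ρ B g :=
  Finset.sum_nonneg fun k _ => mul_nonneg (by rw [pow_mul']; positivity) (l2sq_nonneg _ _)

theorem hsq_mono (A : Gauge M) {ℓ ρ : ℝ} (h0 : 0 ≤ ℓ) (h : ℓ ≤ ρ) {B B' : Finset (Tor M)}
    (hB : B ⊆ B') (g : Tor M × Fin 4 → ℝ) : hsq A ℓ B g ≤ hsq A ρ B' g :=
  Finset.sum_le_sum fun _ _ => mul_le_mul (pow_le_pow_left₀ h0 h _) (l2sq_mono hB _)
    (l2sq_nonneg _ _) (pow_nonneg (h0.trans h) _)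

theorem hsq_eq (A : Gauge M) (ρ : ℝ) (B : Finset (Tor M)) (g : Tor M × Fin 4 → ℝ) :
    hsq A ρ B g = l2sq B g +
      ∑ k ∈ range 4, ρ ^ (2 * (k + 1)) * l2sq B ((Dm A ^ (k + 1)) *ᵥ g) := by
  unfold hsq
  rw [Finset.sum_range_succ']
  simp [add_comm]

theorem l2sq_le_hsq (A : Gauge M) (ρ : ℝ) (B : Finset (Tor M)) (g : Tor M × Fin 4 → ℝ) :
    l2sq B g ≤ hsq A ρ B g := by
  rw [hsq_eq]
  refine le_add_of_nonneg_right (Finset.sum_nonneg fun k _ => ?_)
  exact mul_nonneg (by rw [pow_mul']; positivity) (l2sq_nonneg _ _)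

theorem l2sq_D_le_hsq (A : Gauge M) (ρ : ℝ) (B : Finset (Tor M)) (g : Tor M × Fin 4 → ℝ) :
    ρ ^ 2 * l2sq B (Dm A *ᵥ g) ≤ hsq A ρ B g := by
  unfold hsq
  have := Finset.single_le_sum (s := range 5)
    (f := fun k => ρ ^ (2 * k) * l2sq B ((Dm A ^ k) *ᵥ g))
    (fun k _ => mul_nonneg (by rw [pow_mul']; positivity) (l2sq_nonneg _ _))
    (a := 1) (by simp)
  simpa using this

/-- The terms with derivatives scale. -/
theorem hsq_scale (A : Gauge M) {ℓ ρ : ℝ} (h0 : 0 ≤ ℓ) (h : ℓ ≤ ρ) (hρ : 0 < ρ)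
    {B B' : Finset (Tor M)} (hB : B ⊆ B') (g : Tor M × Fin 4 → ℝ) :
    hsq A ℓ B g ≤ l2sq B g + (ℓ / ρ) ^ 2 * hsq A ρ B' g := by
  rw [hsq_eq, hsq_eq A ρ]
  refine add_le_add le_rfl ?_
  have h1 : 0 ≤ (ℓ / ρ) ^ 2 * l2sq B' g := mul_nonneg (by positivity) (l2sq_nonneg _ _)
  rw [mul_add, Finset.mul_sum]
  refine le_trans (Finset.sum_le_sum fun k _ => ?_) (le_add_of_nonneg_left h1)
  rw [← mul_assoc]
  refine mul_le_mul ?_ (l2sq_mono hB _) (l2sq_nonneg _ _) (by positivity)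
  have e : (ℓ / ρ) ^ 2 * ρ ^ (2 * (k + 1)) = ℓ ^ 2 * ρ ^ (2 * k) := by
    field_simp; ring
  rw [e, show 2 * (k + 1) = 2 + 2 * k by ring, pow_add]
  exact mul_le_mul_of_nonneg_left (pow_le_pow_left₀ h0 h _) (by positivity)

theorem hsq_sub_smul (A : Gauge M) (ρ : ℝ) (B : Finset (Tor M)) (g u : Tor M × Fin 4 → ℝ)
    (a : ℝ) : hsq A ρ B (g - a • u) ≤ 2 * hsq A ρ B g + 2 * a ^ 2 * hsq A ρ B u := by
  unfold hsq
  rw [Finset.mul_sum, Finset.mul_sum, ← Finset.sum_add_distrib]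
  refine Finset.sum_le_sum fun k _ => ?_
  have e : (Dm A ^ k) *ᵥ (g - a • u) = (Dm A ^ k) *ᵥ g + (-a) • ((Dm A ^ k) *ᵥ u) := by
    rw [Matrix.mulVec_sub, Matrix.mulVec_smul, neg_smul, sub_eq_add_neg]
  have h1 := l2sq_add_le B ((Dm A ^ k) *ᵥ g) ((-a) • ((Dm A ^ k) *ᵥ u))
  rw [l2sq_smul] at h1
  rw [e]
  have h2 : 0 ≤ ρ ^ (2 * k) := by rw [pow_mul']; positivity
  have h3 := mul_le_mul_of_nonneg_left h1 h2
  nlinarith

theorem sum_inv_aux (f : Tor M) (R : ℕ) :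
    ∑ x ∈ ball f R, (1 / (1 + (tdist x f : ℝ)) - 1 / (R + 2)) ≤ 4 * (R + 1) := by
  induction R with
  | zero =>
    have h1 : ∀ x ∈ ball f 0, (1 / (1 + (tdist x f : ℝ)) - 1 / (((0:ℕ):ℝ) + 2)) ≤ 1 := by
      intro x _
      have : 1 / (1 + (tdist x f : ℝ)) ≤ 1 := by
        rw [div_le_one (by positivity)]; simp
      have : (0:ℝ) ≤ 1 / (((0:ℕ):ℝ) + 2) := by positivity
      linarith
    have h2 := Finset.sum_le_card_nsmul _ _ _ h1
    have h3 : ((ball f 0).card : ℝ) ≤ 1 := by exact_mod_cast card_ball_le f 0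
    rw [nsmul_eq_mul] at h2
    push_cast at h2 ⊢
    linarith
  | succ R ih =>
    have hs : ball f R ⊆ ball f (R + 1) := ball_sub (by rw [tdist_self]; lia)
    have e : ∑ x ∈ ball f (R + 1), (1 / (1 + (tdist x f : ℝ)) - 1 / (R + 2)) =
        ∑ x ∈ ball f R, (1 / (1 + (tdist x f : ℝ)) - 1 / (R + 2)) := by
      refine (Finset.sum_subset hs fun x hx hx' => ?_).symm
      rw [mem_ball] at hx hx'
      have : tdist x f = R + 1 := by lia
      rw [this]; push_cast; ring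
    have e2 : ∑ x ∈ ball f (R + 1), (1 / (1 + (tdist x f : ℝ)) - 1 / (((R + 1 : ℕ) : ℝ) + 2)) =
        ∑ x ∈ ball f (R + 1), (1 / (1 + (tdist x f : ℝ)) - 1 / (R + 2)) +
          (ball f (R + 1)).card * (1 / ((R + 2) * (R + 3))) := by
      rw [← nsmul_eq_mul, ← Finset.sum_const, ← Finset.sum_add_distrib]
      refine Finset.sum_congr rfl fun x _ => ?_
      push_cast
      field_simp
      ring
    have h3 : ((ball f (R + 1)).card : ℝ) ≤ (2 * (R + 1) + 1) ^ 2 := by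
      exact_mod_cast card_ball_le f (R + 1)
    have h4 : ((ball f (R + 1)).card : ℝ) * (1 / ((R + 2) * (R + 3))) ≤ 4 := by
      rw [mul_one_div, div_le_iff₀ (by positivity)]
      have : (0:ℝ) ≤ R := Nat.cast_nonneg R
      nlinarith
    rw [e2, e]
    push_cast
    linarith

theorem sum_inv (f : Tor M) (R : ℕ) :
    ∑ x ∈ ball f R, 1 / (1 + (tdist x f : ℝ)) ≤ 8 * (R + 1) := by
  have h1 := sum_inv_aux f R
  rw [Finset.sum_sub_distrib, Finset.sum_const, nsmul_eq_mul] at h1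
  have h3 : ((ball f R).card : ℝ) ≤ (2 * R + 1) ^ 2 := by exact_mod_cast card_ball_le f R
  have h4 : ((ball f R).card : ℝ) * (1 / (R + 2)) ≤ 4 * (R + 1) := by
    rw [mul_one_div, div_le_iff₀ (by positivity)]
    have : (0:ℝ) ≤ R := Nat.cast_nonneg R
    nlinarith
  linarith

theorem sum_inv' (f z : Tor M) (r : ℕ) :
    ∑ x ∈ ball z r, 1 / (1 + (tdist x f : ℝ)) ≤ 24 * (r + 1) := by
  have hr : (0:ℝ) ≤ r := Nat.cast_nonneg r
  rcases le_or_gt (tdist z f) (2 * r) with h | h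
  · have hs : ball z r ⊆ ball f (3 * r) := ball_sub (by lia)
    have h1 := Finset.sum_le_sum_of_subset_of_nonneg hs
      (f := fun x => 1 / (1 + (tdist x f : ℝ))) (fun _ _ _ => by positivity)
    have h2 := sum_inv f (3 * r)
    push_cast at h2
    linarith
  · have h1 : ∀ x ∈ ball z r, 1 / (1 + (tdist x f : ℝ)) ≤ 1 / (1 + r) := by
      intro x hx
      rw [mem_ball] at hx
      have h2 := tdist_triangle z x f
      rw [tdist_comm z x] at h2
      have h3 : (r:ℝ) ≤ tdist x f := by exact_mod_cast (by lia : r ≤ tdist x f)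
      exact one_div_le_one_div_of_le (by positivity) (by linarith)
    have h2 := Finset.sum_le_card_nsmul _ _ _ h1
    have h3 : ((ball z r).card : ℝ) ≤ (2 * r + 1) ^ 2 := by exact_mod_cast card_ball_le z r
    have h4 : ((ball z r).card : ℝ) * (1 / (1 + r)) ≤ 4 * (r + 1) := by
      rw [mul_one_div, div_le_iff₀ (by positivity)]
      nlinarith
    rw [nsmul_eq_mul] at h2
    linarith

/-- The norm of a field with the singular decay. -/
theorem l2sq_decay {u : Tor M × Fin 4 → ℝ} {f : Tor M} {C : ℝ} (hC : 0 ≤ C)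
    (hu : ∀ s, u s ^ 2 * (1 + tdist s.1 f) ≤ C) (z : Tor M) (r : ℕ) :
    l2sq (ball z r) u ≤ 96 * C * (r + 1) := by
  have h1 := sum_inv' f z r
  have h2 : l2sq (ball z r) u ≤ ∑ x ∈ ball z r, 4 * C * (1 / (1 + (tdist x f : ℝ))) := by
    refine Finset.sum_le_sum fun x _ => ?_
    have h3 : ∀ a ∈ (univ : Finset (Fin 4)), u (x, a) ^ 2 ≤ C * (1 / (1 + (tdist x f : ℝ))) := by
      intro a _
      rw [mul_one_div, le_div_iff₀ (by positivity)]
      exact hu (x, a)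
    have h4 := Finset.sum_le_card_nsmul _ _ _ h3
    rw [nsmul_eq_mul] at h4
    simp only [Finset.card_univ, Fintype.card_fin, Nat.cast_ofNat] at h4
    linarith
  rw [← Finset.mul_sum] at h2
  nlinarith

end E4

end Vale.Agent.P144Z
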