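import Vale.Agent.P144Z.E4.Smooth
import Vale.Agent.P144Z.E1.Main
import Vale.Agent.P144Z.E2.Main

/-!
Decomposition of a field near a flux.
-/

namespace Vale.Agent.P144Z

open Finset Matrix

namespace E4

/-- A cut-off around the point `f`. -/
theorem cut_est : ∃ C : ℝ, 1 ≤ C ∧ ∀ (M : ℕ) [NeZero M] (A : Gauge M), IsSign A →
    ∀ (f : Tor M) (ρ : ℕ), 256 ≤ ρ → ∃ η : Tor M → ℝ, (∀ x, tdist x f ≤ ρ / 4 → η x = 1) ∧
      (∀ x, ρ ≤ tdist x f → η x = 0) ∧ ∀ z, tdist z f ≤ ρ → ∀ g : Tor M × Fin 4 → ℝ,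
        l2sq univ (fun s => η s.1 * g s) ≤ hsq A ρ (ball z (2 * ρ)) g ∧
        (ρ:ℝ) ^ 2 * l2sq univ (Dm A *ᵥ fun s => η s.1 * g s) ≤ C * hsq A ρ (ball z (2 * ρ)) g := by
  obtain ⟨C, hC, H⟩ := l2sq_cutoff
  refine ⟨2 + 128 * C, by linarith, fun M _ A hA f ρ hρ => ?_⟩
  obtain ⟨w, hw⟩ : ∃ w : ℕ, w = ρ / 4 := ⟨_, rfl⟩
  rw [← hw]
  have w1 : 1 ≤ w := by omega
  have w2 : ρ ≤ 8 * w := by omega
  have w3 : 4 * w ≤ ρ := by omega
  obtain ⟨η, h01, h1, h0, hl⟩ := exists_cutoff f w w1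
  refine ⟨η, h1, fun x hx => h0 x (by omega), fun z hz g => ?_⟩
  have hB : ball f (2 * w + 1) ⊆ ball z (2 * ρ) := ball_sub (by rw [tdist_comm]; omega)
  have hout : ∀ x, x ∉ ball f (2 * w + 1) → η x = 0 := fun x hx => h0 x (by
    rw [mem_ball] at hx; omega)
  have a1 := l2sq_cut h01 hout g
  have a2 := l2sq_cut h01 hout (Dm A *ᵥ g)
  have a3 := l2sq_mono hB g
  have a4 := l2sq_mono hB (Dm A *ᵥ g)
  have a5 := l2sq_le_hsq A ρ (ball z (2 * ρ)) g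
  have a6 := l2sq_D_le_hsq A ρ (ball z (2 * ρ)) g
  have a7 := H M A hA η (1 / w) hl (ball f (2 * w + 1)) (fun x i hx => by
    have t1 := tdist_add_le x f i
    have t2 := tdist_le_add x f i
    rw [mem_ball, mem_ball]
    by_contra hc
    exact hx (by rw [h0 x (by omega), h0 (x + uv M i) (by omega)])) g
  refine ⟨by linarith, ?_⟩
  have a8 := l2sq_add_le univ (Dm A *ᵥ (fun s => η s.1 * g s) - fun s => η s.1 * (Dm A *ᵥ g) s)
    (fun s => η s.1 * (Dm A *ᵥ g) s)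
  rw [sub_add_cancel] at a8
  have w1' : (1:ℝ) ≤ w := by exact_mod_cast w1
  have w2' : (ρ:ℝ) ≤ 8 * w := by exact_mod_cast w2
  have hρ0 : (0:ℝ) ≤ ρ := Nat.cast_nonneg ρ
  have b1 : (ρ:ℝ) ^ 2 * (1 / w) ^ 2 ≤ 64 := by
    rw [← mul_pow, mul_one_div]
    have : (ρ:ℝ) / w ≤ 8 := by rw [div_le_iff₀ (by linarith)]; exact w2'
    have h2 : (0:ℝ) ≤ ρ / w := by positivity
    nlinarith
  have n1 := l2sq_nonneg (ball f (2 * w + 1)) g
  have b2 : (ρ:ℝ) ^ 2 * (C * (1 / w) ^ 2 * l2sq (ball f (2 * w + 1)) g) ≤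
      64 * C * hsq A ρ (ball z (2 * ρ)) g := by
    have := mul_le_mul b1 (a3.trans a5) n1 (by norm_num)
    have := mul_le_mul_of_nonneg_left this (by linarith : 0 ≤ C)
    linarith
  have r2 : (0:ℝ) ≤ (ρ:ℝ) ^ 2 := by positivity
  have b3 := mul_le_mul_of_nonneg_left a8 r2
  have b4 := mul_le_mul_of_nonneg_left a7 r2
  have b5 := mul_le_mul_of_nonneg_left (a2.trans a4) r2
  linarith

theorem cnr_cut {M : ℕ} [NeZero M] (η : Tor M → ℝ) (g : Tor M × Fin 4 → ℝ) (x : Tor M) :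
    cnr x ⬝ᵥ (fun s => η s.1 * g s) = η x * (cnr x ⬝ᵥ g) := by
  rw [cnr_dot, cnr_dot]; ring

/-- The coefficient of the singular mode. -/
theorem coef_est : ∃ C : ℝ, 1 ≤ C ∧ ∀ (M : ℕ) [NeZero M] (A : Gauge M), IsSign A →
    ∀ (f : Tor M) (ρ : ℕ), 256 ≤ ρ → flux A f = -1 → ∀ z, tdist z f ≤ ρ →
    ∀ g : Tor M × Fin 4 → ℝ, (cnr f ⬝ᵥ g) ^ 2 * ρ ≤ C * hsq A ρ (ball z (2 * ρ)) g := by
  obtain ⟨C1, hC1, H1⟩ := cut_est
  obtain ⟨C2, hC2, H2⟩ := energy_a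
  obtain ⟨C3, hC3, H3⟩ := hardy_flux
  have k1 : 1 ≤ C2 * C1 := one_le_mul_of_one_le_of_one_le hC2 hC1
  have k2 : 1 ≤ C3 * (C2 * C1) := one_le_mul_of_one_le_of_one_le hC3 k1
  refine ⟨32 * (C3 * (C2 * C1)), by linarith, fun M _ A hA f ρ hρ hf z hz g => ?_⟩
  obtain ⟨η, h1, -, h2⟩ := H1 M A hA f ρ hρ
  obtain ⟨a1, a2⟩ := h2 z hz g
  have e := cnr_cut η g f
  rw [h1 f (by rw [tdist_self]; omega), one_mul] at e
  rw [← e]
  generalize (fun s : Tor M × Fin 4 => η s.1 * g s) = φ at a1 a2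
  have n0 := hsq_nonneg A (ρ := ρ) (ball z (2 * ρ)) g
  generalize hsq A ρ (ball z (2 * ρ)) g = H at a1 a2 n0
  have ρ1 : (1:ℝ) ≤ ρ := by exact_mod_cast (by omega : 1 ≤ ρ)
  have b1 := H2 M A hA φ univ (fun s hs => absurd (Finset.mem_univ _) hs)
  have b2 := gradsq_mono A (Finset.subset_univ (ball f 1)) φ
  have b3 : ∀ a, φ (f, a) ^ 2 ≤ C3 * gradsq A univ φ := fun a =>
    (H3 M A hA f hf φ a).trans (mul_le_mul_of_nonneg_left b2 (by linarith))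
  have b4 : (cnr f ⬝ᵥ φ) ^ 2 ≤ 16 * (C3 * gradsq A univ φ) := by
    rw [cnr_dot]
    have := b3 0
    have := b3 1
    have := b3 2
    have := b3 3
    nlinarith [sq_nonneg (φ (f, 0) + φ (f, 1)), sq_nonneg (φ (f, 0) + φ (f, 2)),
      sq_nonneg (φ (f, 0) + φ (f, 3)), sq_nonneg (φ (f, 1) - φ (f, 2)),
      sq_nonneg (φ (f, 1) - φ (f, 3)), sq_nonneg (φ (f, 2) - φ (f, 3))]
  have n1 := l2sq_nonneg univ (Dm A *ᵥ φ)
  have n2 := l2sq_nonneg (plus (plus univ)) φ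
  have c1 : l2sq (plus (plus univ)) φ ≤ H := (l2sq_mono (Finset.subset_univ _) φ).trans a1
  generalize l2sq univ (Dm A *ᵥ φ) = Y at a2 b1 n1
  generalize l2sq (plus (plus univ)) φ = X at b1 n2 c1
  have c2 : √X * √Y * ρ ≤ C1 * H := by
    refine abs_le_of_sq_le_sq' ?_ (by positivity) |>.2
    rw [mul_pow, mul_pow, Real.sq_sqrt n2, Real.sq_sqrt n1]
    have d1 : X * (Y * ρ ^ 2) ≤ H * (C1 * H) := mul_le_mul c1 (by linarith) (by positivity) n0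
    have d2 : H * (C1 * H) ≤ (C1 * H) * (C1 * H) :=
      mul_le_mul_of_nonneg_right (le_mul_of_one_le_left n0 hC1) (by positivity)
    linarith
  have c3 : Y * ρ ≤ C1 * H := by
    have : Y * ρ ≤ Y * ρ * ρ := le_mul_of_one_le_right (by positivity) ρ1
    linarith
  have c4 : gradsq A univ φ * ρ ≤ C2 * (2 * (C1 * H)) := by
    have d1 := mul_le_mul_of_nonneg_right b1 (by linarith : (0:ℝ) ≤ ρ)
    have d2 : (Y + √X * √Y) * ρ ≤ 2 * (C1 * H) := by linarith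
    have d3 := mul_le_mul_of_nonneg_left d2 (by linarith : 0 ≤ C2)
    linarith
  have c5 := mul_le_mul_of_nonneg_right b4 (by linarith : (0:ℝ) ≤ ρ)
  have c6 := mul_le_mul_of_nonneg_left c4 (by linarith : 0 ≤ C3)
  linarith

/-- Fields that vanish at the corner of the flux are small near the flux. -/
theorem small_est : ∃ C : ℝ, 1 ≤ C ∧ ∀ (M : ℕ) [NeZero M] (A : Gauge M), IsSign A →
    ∀ (f : Tor M) (ρ : ℕ), 256 ≤ ρ → 8 * ρ ≤ M → flux A f = -1 →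
    (∀ f', f' ≠ f → tdist f' f ≤ 3 * ρ → flux A f' = 1) → ∀ z, tdist z f ≤ ρ →
    ∀ g : Tor M × Fin 4 → ℝ, cnr f ⬝ᵥ g = 0 → ∀ (r : ℕ) (B : Finset (Tor M)), 1 ≤ r →
    B ⊆ ball f r → B ⊆ ball z (2 * ρ) →
    l2sq B g ≤ C * ((r:ℝ) / ρ) ^ 2 * hsq A ρ (ball z (2 * ρ)) g := by
  obtain ⟨C1, hC1, H1⟩ := cut_est
  obtain ⟨C2, hC2, H2⟩ := energy_b
  obtain ⟨C3, hC3, H3⟩ := poin_flux
  have k1 : 1 ≤ C2 * C1 := one_le_mul_of_one_le_of_one_le hC2 hC1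
  have k2 : 1 ≤ C3 * (C2 * C1) := one_le_mul_of_one_le_of_one_le hC3 k1
  refine ⟨16 * (C3 * (C2 * C1)), by linarith,
    fun M _ A hA f ρ hρ hM hf hfl z hz g hg r B hr hB hB' => ?_⟩
  have ρ1 : (1:ℝ) ≤ ρ := by exact_mod_cast (by omega : 1 ≤ ρ)
  have n0 := hsq_nonneg A (ρ := ρ) (ball z (2 * ρ)) g
  rcases le_or_gt r (ρ / 4) with h | h
  · obtain ⟨η, h1, h0, h2⟩ := H1 M A hA f ρ hρ
    obtain ⟨-, a2⟩ := h2 z hz g
    have a3 : l2sq (ball f r) g = l2sq (ball f r) (fun s => η s.1 * g s) :=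
      l2sq_congr fun s hs => by rw [h1 s.1 (by rw [mem_ball] at hs; omega), one_mul]
    have a4 := H2 M A hA (fun s => η s.1 * g s) (fun f' hf' => by
      rw [cnr_cut]
      by_cases e : f' = f
      · rw [e, hg, mul_zero]
      · rw [h0 f', zero_mul]
        by_contra hc
        rw [hfl f' e (by omega)] at hf'
        norm_num at hf')
    have a5 := H3 M A hA f r hr (by omega) hf (fun f' e h' => hfl f' e (by omega))
      (fun s => η s.1 * g s)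
    have a6 := gradsq_mono A (Finset.subset_univ (ball f (r + 1))) (fun s => η s.1 * g s)
    have a7 := l2sq_mono hB g
    rw [← a3] at a5
    generalize (fun s : Tor M × Fin 4 => η s.1 * g s) = φ at a2 a4 a5 a6
    generalize hsq A ρ (ball z (2 * ρ)) g = H at a2 n0
    have b1 : l2sq univ (Dm A *ᵥ φ) ≤ C1 * H / ρ ^ 2 := by
      rw [le_div_iff₀ (by positivity)]; linarith
    have b2 := (a6.trans a4).trans (mul_le_mul_of_nonneg_left b1 (by linarith))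
    have b3 := (a7.trans a5).trans (mul_le_mul_of_nonneg_left b2 (by positivity))
    have b4 : C3 * r ^ 2 * (C2 * (C1 * H / ρ ^ 2)) = C3 * (C2 * C1) * ((r:ℝ) / ρ) ^ 2 * H := by
      field_simp
    have b5 : 0 ≤ C3 * (C2 * C1) * ((r:ℝ) / ρ) ^ 2 * H := by positivity
    linarith
  · have a1 := (l2sq_mono hB' g).trans (l2sq_le_hsq A ρ _ g)
    have a2 : (ρ:ℝ) ≤ 4 * r := by exact_mod_cast (by omega : ρ ≤ 4 * r)
    have a3 : 1 ≤ 16 * ((r:ℝ) / ρ) ^ 2 := by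
      have : 1 / 4 ≤ (r:ℝ) / ρ := by rw [le_div_iff₀ (by linarith)]; linarith
      nlinarith
    have a4 : 1 ≤ C3 * (C2 * C1) * (16 * ((r:ℝ) / ρ) ^ 2) := one_le_mul_of_one_le_of_one_le k2 a3
    have a5 := le_mul_of_one_le_left n0 a4
    linarith

/-- The estimate at all smaller scales for fields that vanish at the corner of the flux. -/
theorem scale_est : ∃ C : ℝ, 1 ≤ C ∧ ∀ (M : ℕ) [NeZero M] (A : Gauge M), IsSign A →
    ∀ (f : Tor M) (ρ : ℕ), 256 ≤ ρ → 8 * ρ ≤ M → flux A f = -1 →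
    (∀ f', f' ≠ f → tdist f' f ≤ 3 * ρ → flux A f' = 1) → ∀ z, tdist z f ≤ ρ →
    ∀ g : Tor M × Fin 4 → ℝ, cnr f ⬝ᵥ g = 0 → ∀ ℓ : ℕ, 1 ≤ ℓ → ℓ ≤ ρ →
    hsq A ℓ (ball z (2 * ℓ)) g ≤ C * ((ℓ:ℝ) / ρ) ^ 2 * hsq A ρ (ball z (2 * ρ)) g := by
  obtain ⟨C1, hC1, H1⟩ := small_est
  obtain ⟨C2, hC2, H2⟩ := bulk_est
  have k1 : C1 ≤ C2 * C1 := le_mul_of_one_le_left (by linarith) hC2
  refine ⟨37 * (C2 * C1), by linarith, fun M _ A hA f ρ hρ hM hf hfl z hz g hg ℓ hl1 hl2 => ?_⟩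
  have ρ1 : (1:ℝ) ≤ ρ := by exact_mod_cast (by omega : 1 ≤ ρ)
  have l1 : (1:ℝ) ≤ ℓ := by exact_mod_cast hl1
  have l2 : (ℓ:ℝ) ≤ ρ := by exact_mod_cast hl2
  have n0 := hsq_nonneg A (ρ := ρ) (ball z (2 * ρ)) g
  have K := H1 M A hA f ρ hρ hM hf hfl z hz g hg
  have n1 : 0 ≤ ((ℓ:ℝ) / ρ) ^ 2 * hsq A ρ (ball z (2 * ρ)) g := by positivity
  have n2 := mul_le_mul_of_nonneg_right k1 n1
  have n3 := le_mul_of_one_le_left n1 hC1
  rcases le_or_gt (tdist z f) (4 * ℓ) with h | h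
  · have s1 : ball z (2 * ℓ) ⊆ ball z (2 * ρ) := ball_sub (by rw [tdist_self]; omega)
    have a1 := hsq_scale A (by linarith) l2 (by linarith) s1 g
    have a2 := K (6 * ℓ) (ball z (2 * ℓ)) (by omega) (ball_sub (by omega)) s1
    have a3 : (((6 * ℓ : ℕ) : ℝ) / ρ) ^ 2 = 36 * ((ℓ:ℝ) / ρ) ^ 2 := by push_cast; ring
    rw [a3] at a2
    linarith
  · obtain ⟨r, hr⟩ : ∃ r : ℕ, r = tdist z f / 2 := ⟨_, rfl⟩
    have r1 : 2 * ℓ ≤ r := by omega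
    have r2 : tdist z f + r ≤ 4 * r := by omega
    have r3 : r < tdist z f := by omega
    have r1' : (1:ℝ) ≤ r := by exact_mod_cast (by omega : 1 ≤ r)
    have r4' : (r:ℝ) ≤ ρ := by exact_mod_cast (by omega : r ≤ ρ)
    have hF : Flat A z r := by
      intro f' hf'
      have := tdist_triangle f' z f
      refine hfl f' ?_ (by omega)
      rintro rfl
      rw [tdist_comm] at hf'
      omega
    have s1 : ball z r ⊆ ball z (2 * ρ) := ball_sub (by rw [tdist_self]; omega)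
    have a0 := H2 M A hA z ℓ r hl1 r1 (by omega) hF g
    have a1 := hsq_scale A (by linarith) r4' (by linarith) s1 g
    have a2 := K (4 * r) (ball z r) (by omega) (ball_sub r2) s1
    have a3 : (((4 * r : ℕ) : ℝ) / ρ) ^ 2 = 16 * ((r:ℝ) / ρ) ^ 2 := by push_cast; ring
    rw [a3] at a2
    generalize hsq A ρ (ball z (2 * ρ)) g = H at n0 n1 n2 n3 a1 a2
    have m1 : 0 ≤ ((r:ℝ) / ρ) ^ 2 * H := by positivity
    have m2 := le_mul_of_one_le_left m1 hC1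
    have a4 : hsq A r (ball z r) g ≤ 17 * C1 * (((r:ℝ) / ρ) ^ 2 * H) := by linarith
    have a5 := a0.trans (mul_le_mul_of_nonneg_left a4 (by positivity))
    have a6 : C2 * ((ℓ:ℝ) / r) ^ 2 * (17 * C1 * (((r:ℝ) / ρ) ^ 2 * H)) =
        17 * (C2 * C1 * (((ℓ:ℝ) / ρ) ^ 2 * H)) := by field_simp
    rw [a6] at a5
    linarith

end E4

open E4 in
/-- Decomposition of a field near a flux. -/
theorem flux_est : ∃ C : ℝ, 1 ≤ C ∧ ∀ (M : ℕ) [NeZero M] (A : Gauge M), IsSign A →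
    ∀ (f : Tor M) (ρ : ℕ), 256 ≤ ρ → 8 * ρ ≤ M → flux A f = -1 →
    (∀ f', f' ≠ f → tdist f' f ≤ 3 * ρ → flux A f' = 1) →
    ∃ u : Tor M × Fin 4 → ℝ, SuppIn u f (ρ / 4) ∧
      (∀ (z : Tor M) (ℓ : ℕ), 1 ≤ ℓ → ℓ ≤ ρ → hsq A ℓ (ball z (2 * ℓ)) u ≤ C * ℓ) ∧
      ∀ z, tdist z f ≤ ρ → ∀ g : Tor M × Fin 4 → ℝ,
        (cnr f ⬝ᵥ g) ^ 2 * ρ ≤ C * hsq A ρ (ball z (2 * ρ)) g ∧
        ∀ ℓ : ℕ, 1 ≤ ℓ → ℓ ≤ ρ → hsq A ℓ (ball z (2 * ℓ)) (g - (cnr f ⬝ᵥ g) • u)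
          ≤ C * ((ℓ : ℝ) / ρ) ^ 2 * hsq A ρ (ball z (2 * ρ)) g := by
  obtain ⟨C1, hC1, H1⟩ := smooth_mode
  obtain ⟨C2, hC2, H2⟩ := coef_est
  obtain ⟨C3, hC3, H3⟩ := scale_est
  have k1 : C1 ≤ C1 * C2 := le_mul_of_one_le_right (by linarith) hC2
  have k2 : C2 ≤ C1 * C2 := le_mul_of_one_le_left (by linarith) hC1
  have k3 : C1 * C2 ≤ C3 * (C1 * C2) := le_mul_of_one_le_left (by linarith) hC3
  refine ⟨4 * (C3 * (C1 * C2)), by linarith, fun M _ A hA f ρ hρ hM hf hfl => ?_⟩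
  obtain ⟨u, c, s, -, b⟩ := H1 M A hA f ρ hρ (by omega) hf (fun f' e h => hfl f' e (by omega))
  refine ⟨u, s, fun z ℓ h1 h2 => (b z ℓ h1 h2).trans
    (mul_le_mul_of_nonneg_right (by linarith) (Nat.cast_nonneg ℓ)), fun z hz g => ?_⟩
  have a1 := H2 M A hA f ρ hρ hf z hz g
  have n0 := hsq_nonneg A (ρ := ρ) (ball z (2 * ρ)) g
  refine ⟨a1.trans (mul_le_mul_of_nonneg_right (by linarith) n0), fun ℓ h1 h2 => ?_⟩
  have a2 := H3 M A hA f ρ hρ hM hf hfl z hz (g - (cnr f ⬝ᵥ g) • u)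
    (by rw [dotProduct_sub, dotProduct_smul, c]; simp) ℓ h1 h2
  have a3 := hsq_sub_smul A ρ (ball z (2 * ρ)) g u (cnr f ⬝ᵥ g)
  have a4 := mul_le_mul_of_nonneg_left (b z ρ (by omega) le_rfl) (sq_nonneg (cnr f ⬝ᵥ g))
  have a5 := mul_le_mul_of_nonneg_left a1 (by linarith : 0 ≤ C1)
  have a6 := le_mul_of_one_le_left n0 (by linarith : 1 ≤ C1 * C2)
  have a7 : hsq A ρ (ball z (2 * ρ)) (g - (cnr f ⬝ᵥ g) • u) ≤
      4 * (C1 * C2) * hsq A ρ (ball z (2 * ρ)) g := by linarith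
  refine a2.trans ((mul_le_mul_of_nonneg_left a7 (by positivity)).trans (le_of_eq ?_))
  ring

end Vale.Agent.P144Z
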