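import Vale.Agent.P144.H365.Ker2

/-!
The singular mode at a flux in the plane lattice: a conjugate pair built from the slit kernel.
-/

namespace Vale.Agent.P144Z.E4

open intervalIntegral MeasureTheory Vale.Agent.P144 Vale.Agent.P144.H365

theorem rh_half {θ : ℝ} (h : θ ∈ Set.uIcc 0 (Real.pi / 2)) :
    rh θ * (Real.cos (θ / 2) + Real.sin (θ / 2)) = Real.cos (θ / 2) - Real.sin (θ / 2) := by
  have hp := Real.pi_pos
  have e1 := rh_one h
  rw [Set.uIcc_of_le (by linarith)] at h
  have hc : 0 < Real.cos (θ / 2) := Real.cos_pos_of_mem_Ioo ⟨by linarith [h.1], by linarith [h.2]⟩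
  have hs : 0 ≤ Real.sin (θ / 2) :=
    Real.sin_nonneg_of_nonneg_of_le_pi (by linarith [h.1]) (by linarith [h.2])
  have s2 : Real.sin θ = 2 * Real.sin (θ / 2) * Real.cos (θ / 2) := by
    rw [← Real.sin_two_mul]; congr 1; ring
  have c2 : Real.cos θ = Real.cos (θ / 2) ^ 2 - Real.sin (θ / 2) ^ 2 := by
    rw [← Real.cos_two_mul']; congr 1; ring
  have h1 := Real.sin_sq_add_cos_sq (θ / 2)
  have h3 : 0 < Real.cos (θ / 2) + Real.sin (θ / 2) := by linarith
  refine mul_right_cancel₀ h3.ne' ?_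
  rw [s2, c2] at e1
  linear_combination e1 + rh θ * h1

theorem GG_k1 (a : ℤ) (t : ℕ) :
    GG a (t + 1) + GG (-a) (t + 1) = GG (a - 1) t + GG (-a - 1) t := by
  unfold GG
  have i1 := GG_int a (t + 1)
  have i2 := GG_int (-a) (t + 1)
  have i3 := GG_int (a - 1) t
  have i4 := GG_int (-a - 1) t
  rw [← mul_add, ← mul_add, ← integral_add i1 i2, ← integral_add i3 i4]
  congr 1
  refine integral_congr fun θ hθ => ?_
  have e := rh_half hθ
  push_cast
  obtain ⟨α, hα⟩ : ∃ α : ℝ, α = (a:ℝ) * θ - Real.pi / 4 := ⟨_, rfl⟩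
  have t1 : ((a:ℝ) + 1 / 2) * θ - Real.pi / 4 = α + θ / 2 := by rw [hα]; ring
  have t2 : (-(a:ℝ) + 1 / 2) * θ - Real.pi / 4 = -((α - θ / 2) + Real.pi / 2) := by rw [hα]; ring
  have t3 : ((a:ℝ) - 1 + 1 / 2) * θ - Real.pi / 4 = α - θ / 2 := by rw [hα]; ring
  have t4 : (-(a:ℝ) - 1 + 1 / 2) * θ - Real.pi / 4 = -((α + θ / 2) + Real.pi / 2) := by
    rw [hα]; ring
  rw [t1, t2, t3, t4, Real.cos_neg, Real.cos_neg, Real.cos_add_pi_div_two, Real.cos_add_pi_div_two,
    Real.cos_add, Real.cos_sub, Real.sin_add, Real.sin_sub, pow_succ]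
  linear_combination (wt θ * rh θ ^ t * (Real.cos α - Real.sin α)) * e

theorem GG_k2 (a : ℤ) (t : ℕ) :
    GG a t - GG (-a) t = GG (a - 1) (t + 1) - GG (-a - 1) (t + 1) := by
  unfold GG
  have i1 := GG_int a t
  have i2 := GG_int (-a) t
  have i3 := GG_int (a - 1) (t + 1)
  have i4 := GG_int (-a - 1) (t + 1)
  rw [← mul_sub, ← mul_sub, ← integral_sub i1 i2, ← integral_sub i3 i4]
  congr 1
  refine integral_congr fun θ hθ => ?_
  have e := rh_half hθ
  push_cast
  obtain ⟨α, hα⟩ : ∃ α : ℝ, α = (a:ℝ) * θ - Real.pi / 4 := ⟨_, rfl⟩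
  have t1 : ((a:ℝ) + 1 / 2) * θ - Real.pi / 4 = α + θ / 2 := by rw [hα]; ring
  have t2 : (-(a:ℝ) + 1 / 2) * θ - Real.pi / 4 = -((α - θ / 2) + Real.pi / 2) := by rw [hα]; ring
  have t3 : ((a:ℝ) - 1 + 1 / 2) * θ - Real.pi / 4 = α - θ / 2 := by rw [hα]; ring
  have t4 : (-(a:ℝ) - 1 + 1 / 2) * θ - Real.pi / 4 = -((α + θ / 2) + Real.pi / 2) := by
    rw [hα]; ring
  rw [t1, t2, t3, t4, Real.cos_neg, Real.cos_neg, Real.cos_add_pi_div_two, Real.cos_add_pi_div_two,
    Real.cos_add, Real.cos_sub, Real.sin_add, Real.sin_sub, pow_succ]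
  linear_combination (-(wt θ * rh θ ^ t * (Real.cos α + Real.sin α))) * e

/-- The side of the diagonal. -/
def sg (x y : ℤ) : ℝ := if y ≤ x then 1 else -1

/-- The model field on horizontal edges. -/
def mh (x y : ℤ) : ℝ := if y = x + 1 ∧ 0 ≤ x then -1 else 1

/-- The model field on vertical edges. -/
def mw (x y : ℤ) : ℝ := if y = x ∧ 1 ≤ x then -1 else 1

/-- The first component. -/
noncomputable def u0 (x y : ℤ) : ℝ := GG (-(x + y)) (x - y).natAbs

/-- The second component. -/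
noncomputable def v0 (x y : ℤ) : ℝ := sg x y * GG (x + y - 2) (x - y).natAbs

theorem mh_sign (x y : ℤ) : mh x y = 1 ∨ mh x y = -1 := by unfold mh; split_ifs <;> simp

theorem mw_sign (x y : ℤ) : mw x y = 1 ∨ mw x y = -1 := by unfold mw; split_ifs <;> simp

theorem model_flux (x y : ℤ) :
    mh x y * mw (x + 1) y * mh x (y + 1) * mw x y = if x = 0 ∧ y = 0 then -1 else 1 := by
  unfold mh mw
  split_ifs <;> first | (exfalso; lia) | norm_num

theorem cr1 (x y : ℤ) :
    mh x y * v0 (x + 1) y - v0 x y = u0 x y - mw x (y - 1) * u0 x (y - 1) := by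
  unfold v0 u0
  rcases le_or_gt y x with h | h
  · obtain ⟨t, ht⟩ : ∃ t : ℕ, x - y = t := ⟨(x - y).toNat, by lia⟩
    have key := GG_k1 (x + y - 1) t
    have s1 : sg (x + 1) y = 1 := by unfold sg; rw [if_pos (by lia)]
    have s2 : sg x y = 1 := by unfold sg; rw [if_pos (by lia)]
    have a1 : mh x y = 1 := by unfold mh; rw [if_neg (by lia)]
    have a2 : mw x (y - 1) = 1 := by unfold mw; rw [if_neg (by lia)]
    rw [s1, s2, a1, a2, show (x + 1 - y).natAbs = t + 1 by lia, show (x - y).natAbs = t by lia,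
      show (x - (y - 1)).natAbs = t + 1 by lia, show x + 1 + y - 2 = x + y - 1 by ring,
      show x + y - 2 = x + y - 1 - 1 by ring, show -(x + y) = -(x + y - 1) - 1 by ring,
      show -(x + (y - 1)) = -(x + y - 1) by ring]
    linarith
  · obtain ⟨t, ht⟩ : ∃ t : ℕ, y - x = t + 1 := ⟨(y - x - 1).toNat, by lia⟩
    have key := GG_k2 (x + y - 1) t
    have s2 : sg x y = -1 := by unfold sg; rw [if_neg (by lia)]
    rw [s2, show (x + 1 - y).natAbs = t by lia, show (x - y).natAbs = t + 1 by lia,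
      show (x - (y - 1)).natAbs = t by lia, show x + 1 + y - 2 = x + y - 1 by ring,
      show x + y - 2 = x + y - 1 - 1 by ring, show -(x + y) = -(x + y - 1) - 1 by ring,
      show -(x + (y - 1)) = -(x + y - 1) by ring]
    have e1 : mh x y * (sg (x + 1) y * GG (x + y - 1) t) = -GG (x + y - 1) t := by
      rcases Nat.eq_zero_or_pos t with rfl | h0
      · have s1 : sg (x + 1) y = 1 := by unfold sg; rw [if_pos (by lia)]
        rcases le_or_gt 0 x with hx | hx
        · have a1 : mh x y = -1 := by unfold mh; rw [if_pos (by lia)]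
          rw [s1, a1]; ring
        · rw [GG_neg' (s := x + y - 1) (by lia) ⟨x, by lia⟩]; ring
      · have s1 : sg (x + 1) y = -1 := by unfold sg; rw [if_neg (by lia)]
        have a1 : mh x y = 1 := by unfold mh; rw [if_neg (by lia)]
        rw [s1, a1]; ring
    have e2 : mw x (y - 1) * GG (-(x + y - 1)) t = GG (-(x + y - 1)) t := by
      rcases Nat.eq_zero_or_pos t with rfl | h0
      · rcases le_or_gt 1 x with hx | hx
        · rw [GG_neg' (s := -(x + y - 1)) (by lia) ⟨-x, by lia⟩]; ring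
        · have a1 : mw x (y - 1) = 1 := by unfold mw; rw [if_neg (by lia)]
          rw [a1]; ring
      · have a1 : mw x (y - 1) = 1 := by unfold mw; rw [if_neg (by lia)]
        rw [a1]; ring
    rw [e1, e2]
    linarith

theorem cr2 (x y : ℤ) :
    mw x y * v0 x (y + 1) - v0 x y = -(u0 x y - mh (x - 1) y * u0 (x - 1) y) := by
  unfold v0 u0
  rcases lt_trichotomy y x with h | h | h
  · obtain ⟨t, ht⟩ : ∃ t : ℕ, x - y = t + 1 := ⟨(x - y - 1).toNat, by lia⟩
    have key := GG_k2 (x + y - 1) t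
    have s1 : sg x (y + 1) = 1 := by unfold sg; rw [if_pos (by lia)]
    have s2 : sg x y = 1 := by unfold sg; rw [if_pos (by lia)]
    have a1 : mw x y = 1 := by unfold mw; rw [if_neg (by lia)]
    have a2 : mh (x - 1) y = 1 := by unfold mh; rw [if_neg (by lia)]
    rw [s1, s2, a1, a2, show (x - (y + 1)).natAbs = t by lia, show (x - y).natAbs = t + 1 by lia,
      show (x - 1 - y).natAbs = t by lia, show x + (y + 1) - 2 = x + y - 1 by ring,
      show x + y - 2 = x + y - 1 - 1 by ring, show -(x + y) = -(x + y - 1) - 1 by ring,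
      show -(x - 1 + y) = -(x + y - 1) by ring]
    linarith
  · subst h
    have key := GG_k1 (y + y - 1) 0
    have s1 : sg y (y + 1) = -1 := by unfold sg; rw [if_neg (by lia)]
    have s2 : sg y y = 1 := by unfold sg; rw [if_pos (by lia)]
    rw [s1, s2, show (y - (y + 1)).natAbs = 0 + 1 by lia, show (y - y).natAbs = 0 by lia,
      show (y - 1 - y).natAbs = 0 + 1 by lia, show y + (y + 1) - 2 = y + y - 1 by ring,
      show y + y - 2 = y + y - 1 - 1 by ring, show -(y + y) = -(y + y - 1) - 1 by ring,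
      show -(y - 1 + y) = -(y + y - 1) by ring]
    rcases le_or_gt 1 y with hy | hy
    · have a1 : mw y y = -1 := by unfold mw; rw [if_pos (by lia)]
      have a2 : mh (y - 1) y = -1 := by unfold mh; rw [if_pos (by lia)]
      have z := GG_neg' (s := -(y + y - 1) - 1) (by lia) ⟨-y, by lia⟩
      rw [a1, a2]
      linarith
    · have a1 : mw y y = 1 := by unfold mw; rw [if_neg (by lia)]
      have a2 : mh (y - 1) y = 1 := by unfold mh; rw [if_neg (by lia)]
      have z := GG_neg' (s := y + y - 1 - 1) (by lia) ⟨y - 1, by lia⟩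
      rw [a1, a2]
      linarith
  · obtain ⟨t, ht⟩ : ∃ t : ℕ, y - x = t := ⟨(y - x).toNat, by lia⟩
    have key := GG_k1 (x + y - 1) t
    have s1 : sg x (y + 1) = -1 := by unfold sg; rw [if_neg (by lia)]
    have s2 : sg x y = -1 := by unfold sg; rw [if_neg (by lia)]
    have a1 : mw x y = 1 := by unfold mw; rw [if_neg (by lia)]
    have a2 : mh (x - 1) y = 1 := by unfold mh; rw [if_neg (by lia)]
    rw [s1, s2, a1, a2, show (x - (y + 1)).natAbs = t + 1 by lia, show (x - y).natAbs = t by lia,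
      show (x - 1 - y).natAbs = t + 1 by lia, show x + (y + 1) - 2 = x + y - 1 by ring,
      show x + y - 2 = x + y - 1 - 1 by ring, show -(x + y) = -(x + y - 1) - 1 by ring,
      show -(x - 1 + y) = -(x + y - 1) by ring]
    linarith

theorem u0_zero : u0 0 0 = 1 := by
  unfold u0
  simpa using GG_zero

theorem W_sq (x y : ℤ) : W (x, y) ^ 2 * (1 + (max x.natAbs y.natAbs : ℕ)) ≤ 128 := by
  obtain ⟨n, hn⟩ : ∃ n : ℕ, n = max x.natAbs y.natAbs := ⟨_, rfl⟩
  rw [← hn]
  rcases Nat.eq_zero_or_pos n with h0 | h0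
  · have hx : x = 0 := by lia
    have hy : y = 0 := by lia
    subst hx hy
    rw [W_tip, h0]
    norm_num
  · have h1 : (1:ℝ) ≤ n := by exact_mod_cast h0
    have h2 : (n:ℝ) ≤ |((x, y).1 : ℝ)| + |((x, y).2 : ℝ)| := by
      have : (n:ℤ) ≤ |x| + |y| := by
        rw [Int.abs_eq_natAbs, Int.abs_eq_natAbs]; lia
      exact_mod_cast this
    have h3 := W_bound (x := (x, y)) (by linarith) h2
    have h4 : W (x, y) ^ 2 ≤ 64 / n := by
      have h5 : |W (x, y)| ^ 2 ≤ (8 / √(n:ℝ)) ^ 2 := pow_le_pow_left₀ (abs_nonneg _) h3 2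
      rw [sq_abs, div_pow, Real.sq_sqrt (by linarith)] at h5
      linarith
    calc W (x, y) ^ 2 * (1 + (n:ℝ)) ≤ 64 / n * (2 * n) :=
          mul_le_mul h4 (by linarith) (by linarith) (by positivity)
      _ = 128 := by field_simp; norm_num

theorem u0_sq (x y : ℤ) : u0 x y ^ 2 * (1 + (max x.natAbs y.natAbs : ℕ)) ≤ 128 := by
  have := W_sq (-x) (-y)
  unfold W at this
  unfold u0
  simp only [Int.natAbs_neg] at this
  rwa [show -x + -y = -(x + y) by ring, show (-x - -y).natAbs = (x - y).natAbs by lia] at this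

theorem v0_sq (x y : ℤ) : v0 x y ^ 2 * (1 + (max x.natAbs y.natAbs : ℕ)) ≤ 256 := by
  have := W_sq (x - 1) (y - 1)
  unfold W at this
  unfold v0
  simp only at this
  rw [show x - 1 + (y - 1) = x + y - 2 by ring,
    show (x - 1 - (y - 1)).natAbs = (x - y).natAbs by lia] at this
  have h1 : sg x y ^ 2 = 1 := by unfold sg; split_ifs <;> norm_num
  have h2 : (1 + (max x.natAbs y.natAbs : ℕ) : ℝ) ≤
      2 * (1 + (max (x - 1).natAbs (y - 1).natAbs : ℕ)) := by
    have : 1 + max x.natAbs y.natAbs ≤ 2 * (1 + max (x - 1).natAbs (y - 1).natAbs) := by lia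
    exact_mod_cast this
  rw [mul_pow, h1, one_mul]
  nlinarith [sq_nonneg (GG (x + y - 2) (x - y).natAbs)]

end Vale.Agent.P144Z.E4
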