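import Vale.Agent.P144Z.E4.Model
import Vale.Agent.P144Z.E4.Ops
import Vale.Agent.P144Z.G.Main

/-!
The singular mode at a flux of the torus.
-/

namespace Vale.Agent.P144Z

open Finset Matrix

namespace E4

variable {M : ℕ} [NeZero M]

theorem lft_add {x f : Tor M} {r : ℕ} (hx : tdist x f ≤ r) (hr : 2 * r + 3 ≤ M) (a b : ℤ)
    (ha : |a| ≤ 1) (hb : |b| ≤ 1) :
    lft (x + prj M (a, b) - f) = ((lft (x - f)).1 + a, (lft (x - f)).2 + b) := by
  have e : x + prj M (a, b) - f = prj M ((lft (x - f)).1 + a, (lft (x - f)).2 + b) := by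
    have h := prj_lft (x - f)
    rw [show x + prj M (a, b) - f = (x - f) + prj M (a, b) by abel]
    conv_lhs => rw [← h]
    unfold prj
    ext <;> simp
  unfold tdist at hx
  have h1 : (lft (x - f)).1.natAbs ≤ r := le_trans (le_max_left _ _) hx
  have h2 : (lft (x - f)).2.natAbs ≤ r := le_trans (le_max_right _ _) hx
  rw [e]
  rw [abs_le] at ha hb
  refine lft_prj ?_ ?_
  · simp only
    rw [Int.abs_eq_natAbs]; lia
  · simp only
    rw [Int.abs_eq_natAbs]; lia

omit [NeZero M] in
theorem uv0 : uv M 0 = prj M (1, 0) := by unfold uv prj; simp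

omit [NeZero M] in
theorem uv1 : uv M 1 = prj M (0, 1) := by unfold uv prj; simp

omit [NeZero M] in
theorem uv0' (x : Tor M) : x - uv M 0 = x + prj M (-1, 0) := by
  unfold uv prj; ext <;> simp [sub_eq_add_neg]

omit [NeZero M] in
theorem uv1' (x : Tor M) : x - uv M 1 = x + prj M (0, -1) := by
  unfold uv prj; ext <;> simp [sub_eq_add_neg]

/-- The model field on the torus. -/
def modA (f : Tor M) : Gauge M := fun e =>
  if e.2 = 0 then mh (lft (e.1 - f)).1 (lft (e.1 - f)).2 else mw (lft (e.1 - f)).1 (lft (e.1 - f)).2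

omit [NeZero M] in
theorem modA_sign (f : Tor M) : IsSign (modA f) := by
  intro e
  unfold modA
  split_ifs
  · exact mh_sign _ _
  · exact mw_sign _ _

omit [NeZero M] in
theorem modA0 (f x : Tor M) : modA f (x, 0) = mh (lft (x - f)).1 (lft (x - f)).2 := by
  unfold modA; simp

omit [NeZero M] in
theorem modA1 (f x : Tor M) : modA f (x, 1) = mw (lft (x - f)).1 (lft (x - f)).2 := by
  unfold modA; simp

theorem lft_eq_zero {x f : Tor M} : ((lft (x - f)).1 = 0 ∧ (lft (x - f)).2 = 0) ↔ x = f := by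
  constructor
  · rintro ⟨h1, h2⟩
    refine tdist_eq_zero ?_
    unfold tdist
    rw [h1, h2]; simp
  · rintro rfl
    have := tdist_self x
    unfold tdist at this
    lia

theorem flux_modA {x f : Tor M} {r : ℕ} (hx : tdist x f ≤ r) (hr : 2 * r + 3 ≤ M) :
    flux (modA f) x = if x = f then -1 else 1 := by
  unfold flux
  rw [modA0, modA1, modA0, modA1, uv0, uv1, lft_add hx hr 1 0 (by norm_num) (by norm_num),
    lft_add hx hr 0 1 (by norm_num) (by norm_num)]
  simp only [add_zero]
  rw [model_flux]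
  simp only [lft_eq_zero]

theorem tdist_sub_uv (x : Tor M) (i : Fin 2) : tdist (x - uv M i) x ≤ 1 := by
  have := tdist_uv (x - uv M i) i
  rwa [sub_add_cancel, tdist_comm] at this

theorem tdist_add_le (x f : Tor M) (i : Fin 2) : tdist (x + uv M i) f ≤ tdist x f + 1 := by
  have := tdist_triangle (x + uv M i) x f
  have := tdist_uv x i
  lia

theorem tdist_le_add (x f : Tor M) (i : Fin 2) : tdist x f ≤ tdist (x + uv M i) f + 1 := by
  have := tdist_triangle x (x + uv M i) f
  have := tdist_uv x i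
  rw [tdist_comm] at this
  lia

theorem tdist_sub_le (x f : Tor M) (i : Fin 2) : tdist (x - uv M i) f ≤ tdist x f + 1 := by
  have := tdist_triangle (x - uv M i) x f
  have := tdist_sub_uv x i
  lia

end E4

open E4 in
/-- The singular mode at a flux, cut off at distance `ρ`. -/
theorem sing_mode : ∃ C : ℝ, 1 ≤ C ∧ ∀ (M : ℕ) [NeZero M] (A : Gauge M), IsSign A →
    ∀ (f : Tor M) (ρ : ℕ), 1 ≤ ρ → 2 * ρ + 11 ≤ M → flux A f = -1 →
    (∀ f', f' ≠ f → tdist f' f ≤ ρ + 4 → flux A f' = 1) →
    ∃ u : Tor M × Fin 4 → ℝ, cnr f ⬝ᵥ u = 1 ∧ (∀ s, tdist s.1 f ≤ ρ → (Dm A *ᵥ u) s = 0) ∧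
      ∀ s, u s ^ 2 * (1 + tdist s.1 f) ≤ C := by
  refine ⟨1408, by norm_num, fun M _ A hA f ρ _ hM hf hfl => ?_⟩
  set A' : Gauge M := fun e => A e * modA f e with hA'
  have sA' : IsSign A' := by
    intro e
    rcases hA e with h | h <;> rcases modA_sign f e with h' | h' <;> simp [hA', h, h']
  have hF : Flat A' f (ρ + 2) := by
    intro x hx
    have e : flux A' x = flux A x * flux (modA f) x := by
      unfold flux; simp only [hA']; ring
    rw [e, flux_modA hx (by lia)]
    by_cases h : x = f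
    · rw [if_pos h, h, hf]; norm_num
    · rw [if_neg h, hfl x h (by lia)]; norm_num
  set τ := trans A' f with hτ
  have sτ : IsSign τ := trans_sign sA' f
  have hstep : ∀ x i, tdist x f ≤ ρ + 2 → tdist (x + uv M i) f ≤ ρ + 2 →
      A (x, i) * τ (x + uv M i) = τ x * modA f (x, i) := by
    intro x i h1 h2
    rw [hτ, trans_gauge sA' (by lia) hF h1 h2]
    have q := sign_sq hA (x, i)
    simp only [hA']
    linear_combination (trans A' f x * modA f (x, i)) * q
  have hstep' : ∀ x i, tdist x f ≤ ρ + 1 →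
      A (x - uv M i, i) * τ (x - uv M i) = τ x * modA f (x - uv M i, i) := by
    intro x i h1
    have h2 := tdist_sub_le x f i
    have h3 := hstep (x - uv M i) i (by lia) (by rw [sub_add_cancel]; lia)
    rw [sub_add_cancel] at h3
    have q := sign_sq hA (x - uv M i, i)
    have q' := sign_sq (modA_sign f) (x - uv M i, i)
    linear_combination (-(A (x - uv M i, i) * modA f (x - uv M i, i))) * h3 +
      (τ x * modA f (x - uv M i, i)) * q - (A (x - uv M i, i) * τ (x - uv M i)) * q'
  set u : Tor M → ℝ := fun x => τ x * u0 (lft (x - f)).1 (lft (x - f)).2 with hu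
  set v : Tor M → ℝ := fun x => τ x * v0 (lft (x - f)).1 (lft (x - f)).2 with hv
  have k1 : ∀ x, tdist x f ≤ ρ + 1 → CR1 A u v x := by
    intro x hx
    have h1 := hstep x 0 (by lia) (by have := tdist_add_le x f 0; lia)
    have h2 := hstep' x 1 hx
    have key := cr1 (lft (x - f)).1 (lft (x - f)).2
    have l1 := lft_add hx (by lia) 1 0 (by norm_num) (by norm_num)
    have l2 := lft_add hx (by lia) 0 (-1) (by norm_num) (by norm_num)
    rw [← uv0] at l1
    rw [← uv1'] at l2
    rw [modA0] at h1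
    rw [modA1, l2] at h2
    unfold CR1
    simp only [hu, hv, l1, l2, add_zero, ← sub_eq_add_neg] at h2 ⊢
    linear_combination (v0 ((lft (x - f)).1 + 1) (lft (x - f)).2) * h1 +
      (u0 (lft (x - f)).1 ((lft (x - f)).2 - 1)) * h2 + τ x * key
  have k2 : ∀ x, tdist x f ≤ ρ + 1 → CR2 A u v x := by
    intro x hx
    have h1 := hstep x 1 (by lia) (by have := tdist_add_le x f 1; lia)
    have h2 := hstep' x 0 hx
    have key := cr2 (lft (x - f)).1 (lft (x - f)).2
    have l1 := lft_add hx (by lia) 0 1 (by norm_num) (by norm_num)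
    have l2 := lft_add hx (by lia) (-1) 0 (by norm_num) (by norm_num)
    rw [← uv1] at l1
    rw [← uv0'] at l2
    rw [modA1] at h1
    rw [modA0, l2] at h2
    unfold CR2
    simp only [hu, hv, l1, l2, add_zero, ← sub_eq_add_neg] at h2 ⊢
    linear_combination (v0 (lft (x - f)).1 ((lft (x - f)).2 + 1)) * h1 -
      (u0 ((lft (x - f)).1 - 1) (lft (x - f)).2) * h2 + τ x * key
  have bu : ∀ x, u x ^ 2 * (1 + tdist x f) ≤ 128 := by
    intro x
    have q := sign_sq sτ x
    have := u0_sq (lft (x - f)).1 (lft (x - f)).2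
    have e : u x ^ 2 = u0 (lft (x - f)).1 (lft (x - f)).2 ^ 2 := by
      simp only [hu]; linear_combination (u0 (lft (x - f)).1 (lft (x - f)).2 ^ 2) * q
    rw [e]; exact this
  have bv : ∀ x, v x ^ 2 * (1 + tdist x f) ≤ 256 := by
    intro x
    have q := sign_sq sτ x
    have := v0_sq (lft (x - f)).1 (lft (x - f)).2
    have e : v x ^ 2 = v0 (lft (x - f)).1 (lft (x - f)).2 ^ 2 := by
      simp only [hv]; linear_combination (v0 (lft (x - f)).1 (lft (x - f)).2 ^ 2) * q
    rw [e]; exact this
  have bv' : ∀ x i, v (x + uv M i) ^ 2 * (1 + tdist x f) ≤ 512 := by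
    intro x i
    have h1 := bv (x + uv M i)
    have h2 : (1 + tdist x f : ℝ) ≤ 2 * (1 + tdist (x + uv M i) f) := by
      have := tdist_le_add x f i
      have : 1 + tdist x f ≤ 2 * (1 + tdist (x + uv M i) f) := by lia
      exact_mod_cast this
    nlinarith [sq_nonneg (v (x + uv M i))]
  refine ⟨fromUV A u v, ?_, ?_, ?_⟩
  · rw [cnr_fromUV]
    have h := (lft_eq_zero (x := f) (f := f)).2 rfl
    simp only [hu, h.1, h.2, u0_zero, hτ, trans_self, mul_one]
  · rintro ⟨x, a⟩ hx
    simp only at hx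
    exact Dm_fromUV hA (k1 x (by lia)) (k2 x (by lia))
      (k1 _ (by have := tdist_add_le x f 1; lia)) (k2 _ (by have := tdist_add_le x f 0; lia)) a
  · intro s
    have h1 := fromUV_sq hA u v s
    have h2 : (0:ℝ) ≤ 1 + tdist s.1 f := by positivity
    have h3 := mul_le_mul_of_nonneg_right h1 h2
    have := bu s.1
    have := bv s.1
    have := bv' s.1 0
    have := bv' s.1 1
    nlinarith

end Vale.Agent.P144Z
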